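import Mathlib

/-! Statement-level definitions for P259 (Grothendieck homotopy hypothesis). DO NOT EDIT. -/

noncomputable section

namespace Vale.Agent.P259

open CategoryTheory CategoryTheory.Limits Opposite

/-- The object `D n` of the globe category. -/
structure Globe where
  dim : ℕ

/-- A map `D m ⟶ D n` is the identity (`none`, `m = n`) or, for `m < n`, the iterated source map
(`some false`) or the iterated target map (`some true`). -/
abbrev GHom (m n : Globe) : Type :=
  {o : Option Bool // (o = none ∧ m.dim = n.dim) ∨ (o ≠ none ∧ m.dim < n.dim)}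

/-- Identity. -/
abbrev GHom.id (m : Globe) : GHom m m := ⟨none, Or.inl ⟨rfl, rfl⟩⟩

lemma GHom.comp_ok {l m n : Globe} (f : GHom l m) (g : GHom m n) :
    (f.1.or g.1 = none ∧ l.dim = n.dim) ∨ (f.1.or g.1 ≠ none ∧ l.dim < n.dim) := by
  obtain ⟨_ | f, hf⟩ := f <;> obtain ⟨_ | g, hg⟩ := g <;> simp at hf hg ⊢ <;> omega

/-- A composite of generators is determined by the generator applied first. -/
abbrev GHom.comp {l m n : Globe} (f : GHom l m) (g : GHom m n) : GHom l n :=
  ⟨f.1.or g.1, f.comp_ok g⟩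

lemma GHom.id_comp {m n : Globe} (f : GHom m n) : (GHom.id m).comp f = f := Subtype.ext (by simp)
lemma GHom.comp_id {m n : Globe} (f : GHom m n) : f.comp (GHom.id n) = f := Subtype.ext (by simp)
lemma GHom.assoc {k l m n : Globe} (f : GHom k l) (g : GHom l m) (h : GHom m n) :
    (f.comp g).comp h = f.comp (g.comp h) := Subtype.ext (by simp [Option.or_assoc])

/-- The globe category. -/
instance globeCat : SmallCategory Globe where
  Hom := GHom
  id := GHom.id
  comp := GHom.comp
  id_comp := GHom.id_comp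
  comp_id := GHom.comp_id
  assoc := GHom.assoc

/-- Iterated source (`b = false`) or target (`b = true`) map `D j ⟶ D i`. -/
def face (b : Bool) {j i : ℕ} (h : j < i) : (⟨j⟩ : Globe) ⟶ ⟨i⟩ :=
  ⟨some b, Or.inr ⟨by simp, h⟩⟩

/-- Tables of dimensions, indexed by the last upper entry. -/
inductive Tab : ℕ → Type
  | one (i : ℕ) : Tab i
  | snoc {l : ℕ} (T : Tab l) (j i : ℕ) (hl : j < l) (hi : j < i) : Tab i

/-- The dimension of a table. -/
def Tab.dim : ∀ {l : ℕ}, Tab l → ℕ
  | _, .one i => i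
  | _, .snoc T _ i _ _ => max T.dim i

/-- Presheaves on the globe category. -/
abbrev PSh : Type 1 := Globeᵒᵖ ⥤ Type

instance pshCat : Category.{0} PSh := Functor.category

instance : HasPushouts PSh := inferInstanceAs (HasPushouts (Globeᵒᵖ ⥤ Type))

/-- The Yoneda embedding. -/
abbrev yo : Globe ⥤ PSh := yoneda

/-- The representable presheaf `D n`. -/
abbrev yD (n : ℕ) : PSh := yo.obj ⟨n⟩

/-- Iterated source / target maps of representable presheaves. -/
abbrev yF (b : Bool) {j i : ℕ} (h : j < i) : yD j ⟶ yD i := yo.map (face b h)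

/-- A presheaf with a map from `D l`. -/
structure Pointed (l : ℕ) where
  obj : PSh
  last : yD l ⟶ obj

/-- Glue the source of a new disc `D i` to the target of the last disc along `D j`. -/
abbrev Pointed.glue {l : ℕ} (P : Pointed l) {j i : ℕ} (hl : j < l) (hi : j < i) : Pointed i :=
  ⟨pushout (yF true hl ≫ P.last) (yF false hi), pushout.inr _ _⟩

/-- The inclusion into the glued presheaf. -/
abbrev Pointed.glueInc {l : ℕ} (P : Pointed l) {j i : ℕ} (hl : j < l) (hi : j < i) :
    P.obj ⟶ (P.glue hl hi).obj := pushout.inl _ _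

/-- The globular sum of a table (iterated pushout of representable presheaves), with the
inclusion of its last disc. -/
def Tab.sum : ∀ {l : ℕ}, Tab l → Pointed l
  | _, .one i => ⟨yD i, 𝟙 _⟩
  | _, .snoc T _ _ hl hi => T.sum.glue hl hi

/-- The category of globular sums: full subcategory of presheaves on the globe category. -/
abbrev Theta : Type := InducedCategory PSh (fun T : (Σ l : ℕ, Tab l) => T.2.sum.obj)

instance thetaCat : Category.{0} Theta := InducedCategory.instCategory

/-- The globular sum of a table, as an object of `Theta`. -/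
def Tab.obj {l : ℕ} (T : Tab l) : Theta := ⟨l, T⟩

/-- The disc `D n` as a globular sum. -/
def disc (n : ℕ) : Theta := (Tab.one n).obj

/-- Iterated source / target map between discs. -/
def dface (b : Bool) {j i : ℕ} (h : j < i) : disc j ⟶ disc i :=
  InducedCategory.homMk (yF b h)

/-- Inclusion of the last disc. -/
def lastInc {l : ℕ} (T : Tab l) : disc l ⟶ T.obj :=
  InducedCategory.homMk T.sum.last

/-- Inclusion of a globular sum into the sum with one more disc. -/
def initInc {l : ℕ} (T : Tab l) (j i : ℕ) (hl : j < l) (hi : j < i) :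
    T.obj ⟶ (T.snoc j i hl hi).obj :=
  InducedCategory.homMk (T.sum.glueInc hl hi)

/-- A functor on `Theta` preserves globular sums. -/
def PreservesSums {C : Type*} [Category C] (F : Theta ⥤ C) : Prop :=
  ∀ (l : ℕ) (T : Tab l) (j i : ℕ) (hl : j < l) (hi : j < i),
    IsPushout (F.map (dface true hl ≫ lastInc T)) (F.map (dface false hi))
      (F.map (initInc T j i hl hi)) (F.map (lastInc (T.snoc j i hl hi)))

/-- Globular extension. -/
structure GlobExt where
  C : Type
  [cat : SmallCategory C]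
  ι : Theta ⥤ C
  bij : Function.Bijective ι.obj
  pres : PreservesSums ι

attribute [instance] GlobExt.cat

namespace GlobExt

/-- Morphism of globular extensions: a functor under `Theta`. -/
structure Mor (E E' : GlobExt) where
  F : E.C ⥤ E'.C
  comm : E.ι ⋙ F = E'.ι

/-- Composition of morphisms of globular extensions. -/
def Mor.comp {E E' E'' : GlobExt} (φ : Mor E E') (ψ : Mor E' E'') : Mor E E'' :=
  ⟨φ.F ⋙ ψ.F, by rw [← Functor.assoc, φ.comm, ψ.comm]⟩

lemma Mor.obj_eq {E E' : GlobExt} (φ : Mor E E') (S : Theta) :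
    φ.F.obj (E.ι.obj S) = E'.ι.obj S := Functor.congr_obj φ.comm S

/-- Action of a morphism on maps between globular sums. -/
def Mor.act {E E' : GlobExt} (φ : Mor E E') {S S' : Theta} (h : E.ι.obj S ⟶ E.ι.obj S') :
    E'.ι.obj S ⟶ E'.ι.obj S' :=
  eqToHom (φ.obj_eq S).symm ≫ φ.F.map h ≫ eqToHom (φ.obj_eq S')

variable (E : GlobExt)

/-- The disc `D n` in `E`. -/
abbrev D (n : ℕ) : E.C := E.ι.obj (disc n)

/-- The cosource map. -/
abbrev σ (n : ℕ) : E.D n ⟶ E.D (n + 1) := E.ι.map (dface false n.lt_succ_self)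

/-- The cotarget map. -/
abbrev τ (n : ℕ) : E.D n ⟶ E.D (n + 1) := E.ι.map (dface true n.lt_succ_self)

/-- Parallel maps out of a disc. -/
def Parallel {X : E.C} : ∀ {n : ℕ}, (E.D n ⟶ X) → (E.D n ⟶ X) → Prop
  | 0, _, _ => True
  | n + 1, f, g => E.σ n ≫ f = E.σ n ≫ g ∧ E.τ n ≫ f = E.τ n ≫ g

/-- `h` is a lift of the pair `(f, g)`. -/
def IsLift {X : E.C} {n : ℕ} (h : E.D (n + 1) ⟶ X) (f g : E.D n ⟶ X) : Prop :=
  E.σ n ≫ h = f ∧ E.τ n ≫ h = g

/-- A parallel pair `D n ⇉ S`. -/
structure Pair where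
  n : ℕ
  S : Theta
  f : E.D n ⟶ E.ι.obj S
  g : E.D n ⟶ E.ι.obj S
  par : E.Parallel f g

variable {E}

/-- `φ` universally adjoins lifts of a set of parallel pairs `D n ⇉ S` with `dim S ≤ n + 1`. -/
def Adjoins {E E' : GlobExt} (φ : Mor E E') : Prop :=
  ∃ (A : Set E.Pair) (h : ∀ p : A, E'.D (p.1.n + 1) ⟶ E'.ι.obj p.1.S),
    (∀ p ∈ A, p.S.2.dim ≤ p.n + 1) ∧
    (∀ p : A, E'.IsLift (h p) (φ.act p.1.f) (φ.act p.1.g)) ∧
    ∀ (E'' : GlobExt) (ψ : Mor E E'') (h'' : ∀ p : A, E''.D (p.1.n + 1) ⟶ E''.ι.obj p.1.S),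
      (∀ p : A, E''.IsLift (h'' p) (ψ.act p.1.f) (ψ.act p.1.g)) →
      ∃! χ : Mor E' E'', φ.comp χ = ψ ∧ ∀ p : A, χ.act (h p) = h'' p

/-- Coherator: colimit of a tower starting at `Theta`, each step adjoining lifts, in which every
parallel pair has a lift. -/
def IsCoherator (E : GlobExt) : Prop :=
  (∃ (st : ℕ → GlobExt) (φ : ∀ k, Mor (st k) (st (k + 1))) (j : ∀ k, Mor (st k) E),
    (st 0).ι.Full ∧ (st 0).ι.Faithful ∧ (∀ k, Adjoins (φ k)) ∧
    (∀ k, (φ k).comp (j (k + 1)) = j k) ∧
    ∀ (E' : GlobExt) (g : ∀ k, Mor (st k) E'), (∀ k, (φ k).comp (g (k + 1)) = g k) →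
      ∃! χ : Mor E E', ∀ k, (j k).comp χ = g k) ∧
  ∀ p : E.Pair, ∃ h, E.IsLift h p.f p.g

/-- Presheaves of sets on `E`. -/
abbrev PShE (E : GlobExt) : Type 1 := E.Cᵒᵖ ⥤ Type

instance pshECat (E : GlobExt) : Category.{0} (PShE E) := Functor.category

/-- The restriction map of a presheaf along a map of globular sums. -/
abbrev res {E : GlobExt} (X : PShE E) {S S' : Theta} (θ : S ⟶ S') :
    X.obj (op (E.ι.obj S')) ⟶ X.obj (op (E.ι.obj S)) := X.map (E.ι.map θ).op

/-- Functors `Cᵒᵖ ⥤ Set` sending globular sums to iterated fibre products. -/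
def IsGpd (E : GlobExt) : ObjectProperty (PShE E) := fun X =>
  ∀ (l : ℕ) (T : Tab l) (j i : ℕ) (hl : j < l) (hi : j < i),
    IsPullback (res X (initInc T j i hl hi)) (res X (lastInc (T.snoc j i hl hi)))
      (res X (dface true hl ≫ lastInc T)) (res X (dface false hi))

/-- The category of `C`-∞-groupoids. -/
abbrev Gpd (E : GlobExt) : Type 1 := (IsGpd E).FullSubcategory

instance gpdCat (E : GlobExt) : Category.{0} (Gpd E) := ObjectProperty.FullSubcategory.category _

/-- A choice of lifts of the pairs `(id, id)`; they give the identity cells. -/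
structure Units (E : GlobExt) where
  κ : ∀ n, E.D (n + 1) ⟶ E.D n
  lift : ∀ n, E.IsLift (κ n) (𝟙 _) (𝟙 _)

/-- The `n`-cells. -/
abbrev Cell (X : Gpd E) (n : ℕ) : Type := X.obj.obj (op (E.D n))

/-- The operation on cells given by a map of discs. -/
abbrev opr {X : Gpd E} {m n : ℕ} (h : E.D m ⟶ E.D n) (c : Cell X n) : Cell X m := X.obj.map h.op c

/-- `c` is an `(n+1)`-cell from `x` to `y`. -/
def Arrow' {X : Gpd E} {n : ℕ} (c : Cell X (n + 1)) (x y : Cell X n) : Prop :=
  opr (E.σ n) c = x ∧ opr (E.τ n) c = y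

/-- Iterated identity cell `1^n_x`. -/
def one (k : Units E) {X : Gpd E} (x : Cell X 0) : ∀ n, Cell X n
  | 0 => x
  | n + 1 => opr (k.κ n) (one k x n)

/-- `π₀`. -/
def pi0 (X : Gpd E) : Type := Quot fun x y : Cell X 0 => ∃ c, Arrow' c x y

/-- `π_{n+1}(X, x)`. -/
def piSucc (k : Units E) (X : Gpd E) (x : Cell X 0) (n : ℕ) : Type :=
  Quot fun c c' : {c : Cell X (n + 1) // Arrow' c (one k x n) (one k x n)} =>
    ∃ e, Arrow' e c.1 c'.1

/-- Action of a map of ∞-groupoids on cells. -/
abbrev cellMap {X Y : Gpd E} (f : X ⟶ Y) {n : ℕ} (c : Cell X n) : Cell Y n :=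
  f.hom.app (op (E.D n)) c

lemma Arrow'.map {X Y : Gpd E} (f : X ⟶ Y) {n : ℕ} {c : Cell X (n + 1)} {x y : Cell X n}
    (h : Arrow' c x y) : Arrow' (cellMap f c) (cellMap f x) (cellMap f y) :=
  ⟨by rw [← h.1]; exact (NatTrans.naturality_apply f.hom (E.σ n).op c).symm,
   by rw [← h.2]; exact (NatTrans.naturality_apply f.hom (E.τ n).op c).symm⟩

lemma cellMap_one (k : Units E) {X Y : Gpd E} (f : X ⟶ Y) (x : Cell X 0) :
    ∀ n, cellMap f (one k x n) = one k (cellMap f x) n
  | 0 => rfl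
  | n + 1 => by
    rw [one, one, ← cellMap_one k f x n]
    exact NatTrans.naturality_apply f.hom (k.κ n).op _

/-- The map induced on `π₀`. -/
def pi0Map {X Y : Gpd E} (f : X ⟶ Y) : pi0 X → pi0 Y :=
  Quot.map (cellMap f) fun _ _ h => h.elim fun c hc => ⟨cellMap f c, hc.map f⟩

/-- The map induced on `π_{n+1}`. -/
def piSuccMap (k : Units E) {X Y : Gpd E} (f : X ⟶ Y) (x : Cell X 0) (n : ℕ) :
    piSucc k X x n → piSucc k Y (cellMap f x) n :=
  Quot.map (fun c => ⟨cellMap f c.1, cellMap_one k f x n ▸ c.2.map f⟩)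
    fun _ _ h => h.elim fun e he => ⟨cellMap f e, he.map f⟩

/-- Weak equivalences of ∞-groupoids. -/
def W (k : Units E) : MorphismProperty (Gpd E) := fun _ _ f =>
  Function.Bijective (pi0Map f) ∧ ∀ x n, Function.Bijective (piSuccMap k f x n)

/-- The presheaf `Hom(F(-), Y)`, as a functor of `Y`. -/
abbrev homPsh {M : Type*} [Category.{0} M] (F : E.C ⥤ M) : M ⥤ PShE E :=
  yoneda ⋙ (Functor.whiskeringLeft _ _ _).obj F.op

lemma isGpd_homPsh {M : Type*} [Category.{0} M] (F : E.C ⥤ M) (hF : PreservesSums (E.ι ⋙ F))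
    (Y : M) : IsGpd E ((homPsh F).obj Y) :=
  fun l T j i hl hi => ((hF l T j i hl hi).op.map (yoneda.obj Y)).flip

/-- The ∞-groupoid `Hom(F(-), Y)`, as a functor of `Y`. -/
def homGpd {M : Type*} [Category.{0} M] (F : E.C ⥤ M)
    (hF : PreservesSums (E.ι ⋙ F)) : M ⥤ Gpd E :=
  (IsGpd E).lift (homPsh F) (isGpd_homPsh F hF)

end GlobExt

/-- Compactly generated spaces. -/
abbrev CG : Type 1 := CompactlyGenerated.{0, 0}

/-- The closed unit `n`-disc. -/
abbrev Ball (n : ℕ) : Type := Metric.closedBall (0 : EuclideanSpace ℝ (Fin n)) 1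

/-- `y` is the point of the lower (`ε = -1`) or upper (`ε = 1`) boundary hemisphere over `x`. -/
def OverHemi (ε : ℝ) {n : ℕ} (x : Ball n) (y : Ball (n + 1)) : Prop :=
  (∀ i : Fin n, y.1 i.castSucc = x.1 i) ∧ y.1 (Fin.last n) = ε * √(1 - ‖x.1‖ ^ 2)

instance ballTop (n : ℕ) : TopologicalSpace (Ball n) := instTopologicalSpaceSubtype

/-- The spaces `X n` are closed discs, with `s n`, `t n` the two boundary hemispheres. -/
def AreDiscs (X : ℕ → Type) [∀ n, TopologicalSpace (X n)] (s t : ∀ n, X n → X (n + 1)) : Prop :=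
  ∃ e : ∀ n, X n ≃ₜ Ball n, ∀ n (x : X n),
    OverHemi (-1) (e n x) (e (n + 1) (s n x)) ∧ OverHemi 1 (e n x) (e (n + 1) (t n x))

/-- Disc functor. -/
structure IsDiscFunctor (E : GlobExt) (D : E.C ⥤ CG) : Prop where
  pres : PreservesSums (E.ι ⋙ D)
  discs : AreDiscs (fun n => (D.obj (E.D n)).toTop) (fun n => (D.map (E.σ n)).hom.hom)
    (fun n => (D.map (E.τ n)).hom.hom)

/-- The map induced on path components. -/
def zeroMap {X Y : Type} [TopologicalSpace X] [TopologicalSpace Y] (f : C(X, Y)) :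
    ZerothHomotopy X → ZerothHomotopy Y :=
  Quotient.map f fun _ _ h => h.elim fun p => ⟨p.map f.continuous⟩

/-- The map induced on homotopy groups. -/
def piMap {X Y : Type} [TopologicalSpace X] [TopologicalSpace Y] (f : C(X, Y)) (x : X) (n : ℕ) :
    HomotopyGroup.Pi n X x → HomotopyGroup.Pi n Y (f x) :=
  Quotient.map (fun p => ⟨f.comp p.1, fun y hy => congrArg f (p.2 y hy)⟩)
    fun _ _ h => ContinuousMap.HomotopicRel.comp_continuousMap h f

/-- Weak homotopy equivalences. -/
def WHE : MorphismProperty CG := fun _ _ f =>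
  Function.Bijective (zeroMap f.hom.hom) ∧
    ∀ x n, Function.Bijective (piMap f.hom.hom x (n + 1))

end Vale.Agent.P259
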